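import Vale.Agent.P100.Cmp.Means

/-!
P100: the pointwise comparison `v^(p+1)/(p+1) ≤ u^(q+1)/(q+1)` for positive entire solutions of
`-Δu = v^p`, `-Δv = u^q` with `q ≤ p`, `1 < p`, with no boundedness assumption.
-/

open MeasureTheory Filter Topology Set Metric
open scoped Laplacian

namespace Vale.Agent.P100.Cmp

open Vale.Agent.P100.Sys

variable {n : ℕ} {u v : EuclideanSpace ℝ (Fin n) → ℝ}

theorem lap_sub_const_mul {F G : EuclideanSpace ℝ (Fin n) → ℝ} {x : EuclideanSpace ℝ (Fin n)}
    (hF : ContDiffAt ℝ 2 F x) (hG : ContDiffAt ℝ 2 G x) (c : ℝ) :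
    lap (fun y => F y - c * G y) x = lap F x - c * lap G x := by
  have hev : ∀ᶠ y in 𝓝 x, DifferentiableAt ℝ F y ∧ DifferentiableAt ℝ G y :=
    ((hF.eventually (by simp)).mono fun y hy => hy.differentiableAt (by norm_num)).and
      ((hG.eventually (by simp)).mono fun y hy => hy.differentiableAt (by norm_num))
  simp only [lap, Finset.mul_sum, ← Finset.sum_sub_distrib]
  refine Finset.sum_congr rfl fun i _ => ?_
  have e : pd i (fun y => F y - c * G y) =ᶠ[𝓝 x] fun y => pd i F y - c * pd i G y :=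
    hev.mono fun y hy => by rw [pd_sub hy.1 (hy.2.const_mul c), pd_const_mul hy.2]
  rw [pd_congr e, pd_sub (differentiableAt_pd hF i) ((differentiableAt_pd hG i).const_mul c),
    pd_const_mul (differentiableAt_pd hG i)]

/-- The mean of `v` over large balls tends to zero. -/
theorem mean_tendsto (hn : 3 ≤ n) {p : ℝ} (hp : 1 < p) (hu : Continuous u) (hv : Continuous v)
    (hu0 : ∀ x, 0 ≤ u x) (hv0 : ∀ x, 0 < v x) (hu2 : ContDiffOn ℝ 2 u {0}ᶜ)
    (heq : ∀ x ≠ 0, lap u x = -(v x ^ p)) :
    Tendsto (fun R : ℝ => (∫ x in closedBall 0 R, v x) / R ^ n) atTop (𝓝 0) := by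
  obtain ⟨C, hC, hb⟩ := ball_bound hn (by linarith) hu hv hu0 (fun x => (hv0 x).le) hu2 heq
  set V := volume.real (closedBall (0 : EuclideanSpace ℝ (Fin n)) 1) with hV
  rw [Metric.tendsto_nhds]
  intro ε hε
  set δ : ℝ := ε / (2 * (V + 1)) with hδ
  have hV0 : 0 ≤ V := measureReal_nonneg
  have hδ0 : 0 < δ := by positivity
  set D : ℝ := δ ^ (1 - p) with hD
  have hD0 : 0 < D := Real.rpow_pos_of_pos hδ0 _
  filter_upwards [eventually_ge_atTop (2 * (n : ℝ)), eventually_gt_atTop (2 * D * C / ε),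
    eventually_gt_atTop (0 : ℝ)] with R hR1 hR2 hR
  have hvp : Continuous fun x => v x ^ p := hv.rpow_const fun x => Or.inl (hv0 x).ne'
  have hpw : ∀ x, v x ≤ δ + D * v x ^ p := by
    intro x
    rcases le_total (v x) δ with h | h
    · nlinarith [mul_nonneg hD0.le (Real.rpow_nonneg (hv0 x).le p)]
    · have h1 : v x = v x ^ (1 - p) * v x ^ p := by
        rw [← Real.rpow_add (hv0 x)]; simp
      have h2 : v x ^ (1 - p) ≤ D := Real.rpow_le_rpow_of_nonpos hδ0 h (by linarith)
      nlinarith [mul_le_mul_of_nonneg_right h2 (Real.rpow_nonneg (hv0 x).le p)]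
  have hc : IsCompact (closedBall (0 : EuclideanSpace ℝ (Fin n)) R) := isCompact_closedBall 0 R
  have hD' : IntegrableOn (fun x => D * v x ^ p) (closedBall 0 R) :=
    (continuous_const.mul hvp).continuousOn.integrableOn_compact hc
  have hδ' : IntegrableOn (fun _ => δ) (closedBall (0 : EuclideanSpace ℝ (Fin n)) R) :=
    continuousOn_const.integrableOn_compact hc
  have h := setIntegral_mono (μ := volume) (g := fun x => δ + D * v x ^ p)
    (hv.continuousOn.integrableOn_compact hc) (hδ'.add hD') hpw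
  rw [integral_add hδ' hD', integral_const_mul, setIntegral_const, smul_eq_mul,
    Measure.addHaar_real_closedBall' volume 0 hR.le, finrank_euclideanSpace_fin, ← hV] at h
  have h' := h.trans (add_le_add le_rfl (mul_le_mul_of_nonneg_left (hb R hR1) hD0.le))
  have hRn : 0 < R ^ n := pow_pos hR n
  rw [Real.dist_eq, sub_zero, abs_of_nonneg (div_nonneg (setIntegral_nonneg measurableSet_closedBall
    fun x _ => (hv0 x).le) hRn.le), div_lt_iff₀ hRn]
  have e1 : R ^ (n - 1) * R = R ^ n := by rw [← pow_succ]; congr 1; omega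
  have e2 : V * δ < ε / 2 := by
    rw [hδ, ← mul_div_assoc, div_lt_iff₀ (by positivity)]
    nlinarith
  have e3 : D * C < ε / 2 * R := by
    rw [div_lt_iff₀ hε] at hR2
    linarith
  calc _ ≤ R ^ n * V * δ + D * (C * R ^ (n - 1)) := h'
    _ = R ^ n * (V * δ) + D * C * R ^ (n - 1) := by ring
    _ < R ^ n * (ε / 2) + ε / 2 * R * R ^ (n - 1) :=
        add_lt_add_of_lt_of_le (mul_lt_mul_of_pos_left e2 hRn)
          (mul_le_mul_of_nonneg_right e3.le (pow_nonneg hR.le _))
    _ = ε * R ^ n := by rw [← e1]; ring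

/-- A nonnegative subsolution below a function of vanishing mean is zero. -/
theorem subsolution_eq_zero (hn : 3 ≤ n) {G : EuclideanSpace ℝ (Fin n) → ℝ} (hGc : Continuous G)
    (hG0 : ∀ x, 0 ≤ G x) (hG2 : ContDiffOn ℝ 2 G {0}ᶜ) (hlap : ∀ x ≠ 0, 0 ≤ lap G x)
    (hv : Continuous v) (hGv : ∀ x, G x ≤ v x)
    (hmean : Tendsto (fun R : ℝ => (∫ x in closedBall 0 R, v x) / R ^ n) atTop (𝓝 0))
    (x₀ : EuclideanSpace ℝ (Fin n)) : G x₀ = 0 := by
  by_contra hne
  have hpos : 0 < G x₀ := lt_of_le_of_ne (hG0 x₀) (Ne.symm hne)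
  have hn3 : (3 : ℝ) ≤ n := by exact_mod_cast hn
  set s : ℝ := ((n : ℝ) - 2) / 2 with hs
  set k : ℝ := n * ((n : ℝ) - 2) with hk
  have hk0 : 0 < k := mul_pos (by linarith) (by linarith)
  set W : EuclideanSpace ℝ (Fin n) → ℝ := fun x => k * (1 + ‖x‖ ^ 2) ^ (-s - 2) * G x with hW
  have hWc : Continuous W := (continuous_const.mul
    ((continuous_const.add (continuous_norm.pow 2)).rpow_const fun x =>
      Or.inl (base_pos x).ne')).mul hGc
  have hW0 : ∀ x, 0 ≤ W x := fun x =>
    mul_nonneg (mul_nonneg hk0.le (Real.rpow_nonneg (base_pos x).le _)) (hG0 x)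
  set R₀ : ℝ := ‖x₀‖ + 1 with hR₀
  set L : ℝ := ∫ x in closedBall 0 R₀, W x with hL
  have hLpos : 0 < L := by
    rw [hL, setIntegral_pos_iff_support_of_nonneg_ae (Eventually.of_forall hW0)
      (hWc.continuousOn.integrableOn_compact (isCompact_closedBall _ _))]
    have ho : IsOpen (Function.support G ∩ ball 0 R₀) := hGc.isOpen_support.inter isOpen_ball
    refine lt_of_lt_of_le (ho.measure_pos volume ⟨x₀, hne, by simp [hR₀]⟩) (measure_mono ?_)
    rintro x ⟨hx, hx'⟩
    exact ⟨mul_ne_zero (mul_pos hk0 (Real.rpow_pos_of_pos (base_pos x) _)).ne' hx,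
      ball_subset_closedBall hx'⟩
  obtain ⟨B, hB, hcut⟩ := cut_deriv_bounds n
  set K : ℝ := B * (4 * n * ((n : ℝ) - 2) + 1) with hK
  have key : ∀ R : ℝ, R₀ ≤ R → L ≤ K * 2 ^ n * ((∫ x in closedBall 0 (2 * R), v x) / (2 * R) ^ n) := by
    intro R hR
    have hR0 : 0 < R := lt_of_lt_of_le (by positivity) hR
    set φ : EuclideanSpace ℝ (Fin n) → ℝ := fun x => cut n R x * tal s x with hφ
    have hφd : ContDiff ℝ 2 φ := contDiff_cut.mul (contDiff_tal s)
    have hcs : HasCompactSupport (cut n R) :=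
      HasCompactSupport.of_support_subset_isCompact (isCompact_closedBall 0 (2 * R)) fun x hx => by
        rw [mem_closedBall_zero_iff]
        by_contra h
        exact hx (cut_eq_zero hR0 (not_le.1 h).le)
    have hφc : HasCompactSupport φ := hcs.mul_right
    have hpos' : ∀ x, 0 ≤ φ x :=
      fun x => mul_nonneg cut_nonneg (Real.rpow_nonneg (base_pos x).le _)
    have hgreen := green_nonneg hn hGc hG2 hlap hφd hφc hpos'
    set S := closedBall (0 : EuclideanSpace ℝ (Fin n)) (2 * R) with hS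
    have hpw : ∀ x, G x * lap φ x ≤
        K / R ^ n * S.indicator v x - (closedBall 0 R₀).indicator W x := by
      intro x
      have hl : lap (tal (n := n) s) x = -(k * (1 + ‖x‖ ^ 2) ^ (-s - 2)) := by
        rw [lap_tal, hs, hk]; ring
      rw [hφ, lap_mul contDiff_cut.contDiffAt (contDiff_tal s).contDiffAt, hl]
      have hmain : -(cut n R x * W x) ≤ -(closedBall 0 R₀).indicator W x := by
        refine neg_le_neg ?_
        by_cases hx : x ∈ closedBall (0 : EuclideanSpace ℝ (Fin n)) R₀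
        · rw [indicator_of_mem hx, cut_eq_one hR0 ((mem_closedBall_zero_iff.1 hx).trans hR), one_mul]
        · rw [indicator_of_notMem hx]; exact mul_nonneg cut_nonneg (hW0 x)
      have hrest : G x * (2 * ∑ i, pd i (cut n R) x * pd i (tal s) x + lap (cut n R) x * tal s x) ≤
          K / R ^ n * S.indicator v x := by
        by_cases hx : ‖x‖ < R ∨ 2 * R < ‖x‖
        · rw [(pd_cut_eq_zero hR0 hx).2]
          simp only [(pd_cut_eq_zero hR0 hx).1, zero_mul, Finset.sum_const_zero, mul_zero, add_zero]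
          exact mul_nonneg (by have : 0 ≤ (n : ℝ) - 2 := by linarith
                               positivity)
            (indicator_nonneg (fun y _ => (hG0 y).trans (hGv y)) x)
        rw [not_or, not_lt, not_lt] at hx
        rw [indicator_of_mem (show x ∈ S by rw [hS, mem_closedBall_zero_iff]; exact hx.2), mul_comm]
        refine mul_le_mul ?_ (hGv x) (hG0 x) (by have : 0 ≤ (n : ℝ) - 2 := by linarith
                                                 positivity)
        have hsq : R ^ 2 ≤ 1 + ‖x‖ ^ 2 := by nlinarith [pow_le_pow_left₀ hR0.le hx.1 2]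
        have e1 : (1 + ‖x‖ ^ 2) ^ (-s - 1) ≤ 1 / R ^ n := by
          refine (Real.rpow_le_rpow_of_nonpos (pow_pos hR0 2) hsq (by rw [hs]; linarith)).trans_eq ?_
          rw [← Real.rpow_natCast R 2, ← Real.rpow_mul hR0.le, one_div, ← Real.rpow_natCast R n,
            ← Real.rpow_neg hR0.le]
          congr 1
          rw [hs]; push_cast; ring
        have e2 : tal (n := n) s x ≤ R ^ 2 / R ^ n := by
          refine (Real.rpow_le_rpow_of_nonpos (pow_pos hR0 2) hsq (by rw [hs]; linarith)).trans_eq ?_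
          rw [← Real.rpow_natCast R 2, ← Real.rpow_mul hR0.le, ← Real.rpow_natCast R n,
            ← Real.rpow_sub hR0]
          congr 1
          rw [hs]; push_cast; ring
        have hc := hcut R hR0 x
        have a1 : ∀ i, pd i (cut n R) x * pd i (tal s) x ≤ 2 * B * ((n : ℝ) - 2) / R ^ n := by
          intro i
          refine (le_abs_self _).trans ?_
          rw [abs_mul, pd_tal, show -(2 * s) * x i * (1 + ‖x‖ ^ 2) ^ (-s - 1) =
            -((((n : ℝ) - 2)) * x i * (1 + ‖x‖ ^ 2) ^ (-s - 1)) by rw [hs]; ring, abs_neg, abs_mul,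
            abs_mul, abs_of_nonneg (by linarith : (0:ℝ) ≤ (n:ℝ) - 2),
            abs_of_nonneg (Real.rpow_nonneg (base_pos x).le _)]
          have hxi : |x i| ≤ 2 * R := le_trans (by
            have h := PiLp.norm_apply_le x i
            rwa [Real.norm_eq_abs] at h) hx.2
          have e4 := mul_le_mul (mul_le_mul_of_nonneg_left hxi (by linarith : (0:ℝ) ≤ (n:ℝ) - 2)) e1
            (Real.rpow_nonneg (base_pos x).le _) (by
              have : 0 ≤ (n : ℝ) - 2 := by linarith
              positivity)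
          refine (mul_le_mul (hc.1 i) e4 (mul_nonneg (mul_nonneg (by linarith) (abs_nonneg _))
            (Real.rpow_nonneg (base_pos x).le _)) (by positivity)).trans_eq ?_
          field_simp
        have a2 : lap (cut n R) x * tal s x ≤ B / R ^ n := by
          refine (le_abs_self _).trans ?_
          rw [abs_mul, abs_of_nonneg (show (0:ℝ) ≤ tal (n := n) s x from
            Real.rpow_nonneg (base_pos x).le _)]
          refine (mul_le_mul hc.2 e2 (Real.rpow_nonneg (base_pos x).le _) (by positivity)).trans_eq ?_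
          field_simp
        calc _ ≤ 2 * ∑ _i : Fin n, 2 * B * ((n : ℝ) - 2) / R ^ n + B / R ^ n :=
              add_le_add (mul_le_mul_of_nonneg_left (Finset.sum_le_sum fun i _ => a1 i) zero_le_two) a2
          _ = K / R ^ n := by
              rw [Finset.sum_const, Finset.card_univ, Fintype.card_fin, nsmul_eq_mul, hK]; ring
      calc _ = -(cut n R x * W x) +
            G x * (2 * ∑ i, pd i (cut n R) x * pd i (tal s) x + lap (cut n R) x * tal s x) := by
              simp only [hW]; ring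
        _ ≤ _ := by linarith
    have i1 : Integrable fun x => G x * lap φ x := by
      refine (hGc.mul (continuous_lap hφd)).integrable_of_hasCompactSupport
        (HasCompactSupport.of_support_subset_isCompact hφc fun x hx => ?_)
      by_contra h
      refine hx ?_
      show G x * lap φ x = 0
      rw [lap, Finset.sum_eq_zero fun i _ => ?_, mul_zero]
      rw [pd_congr (((isClosed_tsupport φ).isOpen_compl.eventually_mem h).mono
        fun y hy => pd_eq_zero_of_notMem i hy) i]
      simp [pd]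
    have i2 := (integrable_indicator hv measurableSet_closedBall (subset_refl S)).const_mul (K / R ^ n)
    have i3 : Integrable ((closedBall (0 : EuclideanSpace ℝ (Fin n)) R₀).indicator W) :=
      integrable_indicator hWc measurableSet_closedBall subset_rfl
    have h := hgreen.trans (integral_mono i1 (i2.sub i3) hpw)
    rw [integral_sub' i2 i3, integral_const_mul, integral_indicator measurableSet_closedBall,
      integral_indicator measurableSet_closedBall, ← hL] at h
    calc L ≤ K / R ^ n * ∫ x in S, v x := by linarith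
      _ = _ := by rw [mul_pow]; field_simp
  have ht : Tendsto (fun R : ℝ => K * 2 ^ n * ((∫ x in closedBall 0 (2 * R), v x) / (2 * R) ^ n))
      atTop (𝓝 0) := by
    simpa using (hmean.comp (tendsto_id.const_mul_atTop two_pos)).const_mul (K * 2 ^ n)
  exact hLpos.not_ge (ge_of_tendsto ht (eventually_atTop.2 ⟨R₀, key⟩))

/-- The comparison for positive entire solutions of the Lane–Emden system. -/
theorem comparison {n : ℕ} (hn : 3 ≤ n) {p q : ℝ} (hp : 1 < p) (hq : -1 < q) (hqp : q ≤ p)
    {u v : EuclideanSpace ℝ (Fin n) → ℝ} (hu : Continuous u) (hv : Continuous v)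
    (hpos : ∀ x, 0 < u x ∧ 0 < v x)
    (h : ∀ x ≠ 0, ContDiffAt ℝ 2 u x ∧ ContDiffAt ℝ 2 v x ∧
      -Δ u x = v x ^ p ∧ -Δ v x = u x ^ q) (x : EuclideanSpace ℝ (Fin n)) :
    v x ^ (p + 1) / (p + 1) ≤ u x ^ (q + 1) / (q + 1) := by
  have hu2 : ContDiffOn ℝ 2 u {0}ᶜ := fun y hy => (h y hy).1.contDiffWithinAt
  have hv2 : ContDiffOn ℝ 2 v {0}ᶜ := fun y hy => (h y hy).2.1.contDiffWithinAt
  have hlu : ∀ y ≠ 0, lap u y = -(v y ^ p) := fun y hy => by
    rw [← laplacian_eq_lap (h y hy).1, ← (h y hy).2.2.1, neg_neg]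
  have hlv : ∀ y ≠ 0, lap v y = -(u y ^ q) := fun y hy => by
    rw [← laplacian_eq_lap (h y hy).2.1, ← (h y hy).2.2.2, neg_neg]
  set σ : ℝ := (q + 1) / (p + 1) with hσ
  have hσ0 : 0 < σ := div_pos (by linarith) (by linarith)
  have hσ1 : σ ≤ 1 := by rw [hσ, div_le_one (by linarith)]; linarith
  have hσp : σ * (p + 1) = q + 1 := div_mul_cancel₀ _ (by linarith)
  set l : ℝ := (1 / σ) ^ (1 / (p + 1)) with hl
  have hl0 : 0 < l := Real.rpow_pos_of_pos (by positivity) _
  have hlp : l ^ (p + 1) = 1 / σ := by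
    rw [hl, ← Real.rpow_mul (by positivity), one_div_mul_cancel (by linarith), Real.rpow_one]
  set w : EuclideanSpace ℝ (Fin n) → ℝ := fun y => v y - l * u y ^ σ with hw
  set G : EuclideanSpace ℝ (Fin n) → ℝ := fun y => ramp (w y) with hG
  have hwc : Continuous w :=
    hv.sub (continuous_const.mul (hu.rpow_const fun y => Or.inl (hpos y).1.ne'))
  have huσ : ∀ y ≠ 0, ContDiffAt ℝ 2 (fun z => u z ^ σ) y := fun y hy =>
    (h y hy).1.rpow_const_of_ne (hpos y).1.ne'
  have hw2 : ∀ y ≠ 0, ContDiffAt ℝ 2 w y := fun y hy =>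
    (h y hy).2.1.sub (contDiffAt_const.mul (huσ y hy))
  have hG2 : ContDiffOn ℝ 2 G {0}ᶜ := fun y hy =>
    (contDiff_ramp.contDiffAt.comp y (hw2 y hy)).contDiffWithinAt
  have hlap : ∀ y ≠ 0, 0 ≤ lap G y := by
    intro y hy
    rw [hG, lap_comp (Eventually.of_forall hasDerivAt_ramp) (hasDerivAt_ramp1 _) (hw2 y hy)]
    refine add_nonneg ?_ (mul_nonneg (ramp2_nonneg _) (Finset.sum_nonneg fun i _ => sq_nonneg _))
    by_cases hwy : w y ≤ 0
    · rw [show ramp1 (w y) = 0 from if_pos hwy, zero_mul]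
    refine mul_nonneg (ramp1_mem _).1 ?_
    rw [not_le] at hwy
    have hU : 0 < u y := (hpos y).1
    rw [hw, lap_sub_const_mul (h y hy).2.1 (huσ y hy),
      lap_comp (h := fun t => t ^ σ) (h1 := fun t => σ * t ^ (σ - 1))
        (h2 := fun t => σ * ((σ - 1) * t ^ (σ - 1 - 1)))
        ((eventually_ne_nhds hU.ne').mono fun t ht => Real.hasDerivAt_rpow_const (Or.inl ht))
        ((Real.hasDerivAt_rpow_const (Or.inl hU.ne')).const_mul _) (h y hy).1, hlv y hy, hlu y hy]
    have hgt : l * u y ^ σ < v y := by simp only [hw] at hwy; linarith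
    have e1 : (l * u y ^ σ) ^ p ≤ v y ^ p :=
      Real.rpow_le_rpow (mul_nonneg hl0.le (Real.rpow_nonneg hU.le _)) hgt.le (by linarith)
    rw [Real.mul_rpow hl0.le (Real.rpow_nonneg hU.le _), ← Real.rpow_mul hU.le] at e1
    have e2 : σ * (l * (u y ^ (σ - 1) * (l ^ p * u y ^ (σ * p)))) = u y ^ q := by
      rw [show σ * (l * (u y ^ (σ - 1) * (l ^ p * u y ^ (σ * p)))) =
          (σ * (l ^ p * l)) * (u y ^ (σ - 1) * u y ^ (σ * p)) by ring,
        ← Real.rpow_add_one hl0.ne', hlp, mul_one_div_cancel hσ0.ne', one_mul,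
        ← Real.rpow_add hU]
      congr 1
      linarith [hσp, mul_add σ p 1]
    have e3 := mul_le_mul_of_nonneg_left
      (mul_le_mul_of_nonneg_left (mul_le_mul_of_nonneg_left e1 (Real.rpow_nonneg hU.le (σ - 1)))
        hl0.le) hσ0.le
    rw [e2] at e3
    have e4 : 0 ≤ l * (σ * ((1 - σ) * u y ^ (σ - 1 - 1)) * ∑ i, pd i u y ^ 2) :=
      mul_nonneg hl0.le (mul_nonneg (mul_nonneg hσ0.le (mul_nonneg (sub_nonneg.2 hσ1)
        (Real.rpow_nonneg hU.le _))) (Finset.sum_nonneg fun i _ => sq_nonneg _))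
    linarith
  have hGv : ∀ y, G y ≤ v y := fun y => ramp_le (hpos y).2.le (by
    simp only [hw]; linarith [mul_nonneg hl0.le (Real.rpow_nonneg (hpos y).1.le σ)])
  have hmean := mean_tendsto hn hp hu hv (fun y => (hpos y).1.le) (fun y => (hpos y).2) hu2 hlu
  have h0 := subsolution_eq_zero hn (contDiff_ramp.continuous.comp hwc) (fun y => ramp_nonneg _)
    hG2 hlap hv hGv hmean x
  have hwx : w x ≤ 0 := not_lt.1 fun hp' => (ramp_pos hp').ne' h0
  have hle : v x ≤ l * u x ^ σ := by simp only [hw] at hwx; linarith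
  have hb := Real.rpow_le_rpow (hpos x).2.le hle (by linarith : (0:ℝ) ≤ p + 1)
  rw [Real.mul_rpow hl0.le (Real.rpow_nonneg (hpos x).1.le _), ← Real.rpow_mul (hpos x).1.le, hσp,
    hlp] at hb
  rw [div_le_iff₀ (by linarith : (0:ℝ) < p + 1)]
  refine hb.trans_eq ?_
  rw [hσ, one_div_div]
  ring

end Vale.Agent.P100.Cmp
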