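import Vale.Agent.P100.Cmp.Weak

/-!
P100: growth of the averages of a superharmonic pair. For `-Δu = v^p` with `u, v > 0` the integral of
`u` over an annulus of radius `R` is `O(R^(n+1))`, so the mean of `v^p`, hence of `v`, tends to zero.
-/

open MeasureTheory Filter Topology Set Metric

namespace Vale.Agent.P100.Cmp

open Vale.Agent.P100.Sys

variable {n : ℕ} {u v : EuclideanSpace ℝ (Fin n) → ℝ}

theorem lap_neg (u : EuclideanSpace ℝ (Fin n) → ℝ) (x : EuclideanSpace ℝ (Fin n)) :
    lap (fun y => -u y) x = -lap u x := by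
  have h : ∀ (F : EuclideanSpace ℝ (Fin n) → ℝ) (i : Fin n) y,
      pd i (fun z => -F z) y = -pd i F y := fun F i y => by simp [pd, fderiv_fun_neg]
  simp only [lap, ← Finset.sum_neg_distrib]
  exact Finset.sum_congr rfl fun i _ => by
    rw [pd_congr (Eventually.of_forall fun y => h u i y) i, h]

theorem measurableSet_shell (R : ℝ) :
    MeasurableSet (closedBall (0 : EuclideanSpace ℝ (Fin n)) (2 * R) \ ball 0 R) :=
  measurableSet_closedBall.diff measurableSet_ball

theorem integrable_indicator {F : EuclideanSpace ℝ (Fin n) → ℝ} (hF : Continuous F)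
    {S : Set (EuclideanSpace ℝ (Fin n))} (hS : MeasurableSet S) {r : ℝ}
    (hr : S ⊆ closedBall 0 r) : Integrable (S.indicator F) :=
  ((hF.continuousOn.integrableOn_compact (isCompact_closedBall 0 r)).mono_set hr).integrable_indicator hS

/-- A positive superharmonic function has integral `O(R^(n+1))` over the annulus of radius `R`. -/
theorem shell_bound (hn : 3 ≤ n) (hu : Continuous u) (hu0 : ∀ x, 0 ≤ u x)
    (hu2 : ContDiffOn ℝ 2 u {0}ᶜ) (hsup : ∀ x ≠ 0, lap u x ≤ 0) :
    ∃ C : ℝ, 0 ≤ C ∧ ∀ R : ℝ, 2 * n ≤ R →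
      ∫ x in closedBall 0 (2 * R) \ ball 0 R, u x ≤ C * R ^ (n + 1) := by
  have hn3 : (3 : ℝ) ≤ n := by exact_mod_cast hn
  set s : ℝ := ((n : ℝ) - 1) / 2 with hs
  set K : ℝ := ((n : ℝ) - 1) * 5 ^ (-s - 2) / 4 with hK
  have hK0 : 0 < K := div_pos (mul_pos (by linarith) (Real.rpow_pos_of_pos (by norm_num) _))
    (by norm_num)
  set N : ℝ := ((n : ℝ) - 1) * n with hN
  have hN0 : 0 ≤ N := mul_nonneg (by linarith) (by linarith)
  set I : ℝ := ∫ x in closedBall 0 (n : ℝ), u x with hI
  refine ⟨N * I / K, div_nonneg (mul_nonneg hN0 (setIntegral_nonneg measurableSet_closedBall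
    fun x _ => hu0 x)) hK0.le, fun R hR => ?_⟩
  have hR0 : 0 < R := by linarith
  set κ : ℝ := (1 + 16 * R ^ 2) ^ s with hκ
  have hb : (0 : ℝ) < 1 + 16 * R ^ 2 := by positivity
  have hκ0 : 0 < κ := Real.rpow_pos_of_pos hb _
  set φ : EuclideanSpace ℝ (Fin n) → ℝ := fun x => ramp (κ * tal s x - 1) with hφ
  have hφd : ContDiff ℝ 2 φ :=
    contDiff_ramp.comp ((contDiff_const.mul (contDiff_tal s)).sub contDiff_const)
  have hφc : HasCompactSupport φ := by
    refine HasCompactSupport.of_support_subset_isCompact (isCompact_closedBall 0 (4 * R))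
      fun x hx => ?_
    rw [mem_closedBall_zero_iff]
    by_contra h
    refine hx (ramp_eq_zero (sub_nonpos.2 ?_))
    rw [tal, Real.rpow_neg (base_pos x).le, hκ, ← div_eq_mul_inv,
      div_le_one (Real.rpow_pos_of_pos (base_pos x) _)]
    exact Real.rpow_le_rpow hb.le (by nlinarith [not_le.1 h]) (by rw [hs]; linarith)
  have hlapφ : ∀ x, lap φ x = κ * ramp1 (κ * tal s x - 1) * lap (tal s) x +
      κ * κ * ramp2 (κ * tal s x - 1) * ∑ i, pd i (tal s) x ^ 2 := by
    intro x
    refine lap_comp (h := fun t => ramp (κ * t - 1)) (h1 := fun t => κ * ramp1 (κ * t - 1))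
      (h2 := fun t => κ * κ * ramp2 (κ * t - 1)) (Eventually.of_forall fun t => ?_) ?_
      (contDiff_tal s).contDiffAt
    · exact ((hasDerivAt_ramp _).comp t (((hasDerivAt_id t).const_mul κ).sub_const 1)).congr_deriv
        (by simp only [id]; ring)
    · exact (((hasDerivAt_ramp1 _).comp _
        (((hasDerivAt_id _).const_mul κ).sub_const 1)).const_mul κ).congr_deriv
          (by simp only [id]; ring)
  have hgreen : ∫ x, u x * lap φ x ≤ 0 := by
    have h := green_nonneg (G := fun x => -u x) hn hu.neg hu2.neg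
      (fun x hx => by rw [lap_neg]; linarith [hsup x hx]) hφd hφc (fun x => ramp_nonneg _)
    simp only [neg_mul, integral_neg] at h
    linarith
  set S := closedBall (0 : EuclideanSpace ℝ (Fin n)) (2 * R) \ ball 0 R with hS
  set Bn := closedBall (0 : EuclideanSpace ℝ (Fin n)) (n : ℝ) with hBn
  have hpw : ∀ x, K / R ^ (n + 1) * κ * S.indicator u x - N * κ * Bn.indicator u x ≤
      u x * lap φ x := by
    intro x
    rw [hlapφ]
    have hr1 := ramp1_mem (κ * tal s x - 1)
    have h2 : 0 ≤ u x * (κ * κ * ramp2 (κ * tal s x - 1) * ∑ i, pd i (tal s) x ^ 2) :=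
      mul_nonneg (hu0 x) (mul_nonneg (mul_nonneg (mul_nonneg hκ0.le hκ0.le) (ramp2_nonneg _))
        (Finset.sum_nonneg fun i _ => sq_nonneg _))
    have hl : lap (tal (n := n) s) x =
        ((n : ℝ) - 1) * (1 + ‖x‖ ^ 2) ^ (-s - 2) * (‖x‖ ^ 2 - n) := by
      rw [lap_tal, hs]; ring
    have he : 0 < (1 + ‖x‖ ^ 2) ^ (-s - 2) := Real.rpow_pos_of_pos (base_pos x) _
    rw [mul_add]
    refine le_trans ?_ (le_add_of_nonneg_right h2)
    by_cases hxS : x ∈ S
    · obtain ⟨hx1, hx2⟩ := hxS
      rw [mem_closedBall_zero_iff] at hx1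
      rw [mem_ball_zero_iff, not_lt] at hx2
      have hxB : x ∉ Bn := fun h => by rw [hBn, mem_closedBall_zero_iff] at h; linarith
      rw [indicator_of_mem (show x ∈ S from ⟨by simpa using hx1, by simpa using hx2⟩),
        indicator_of_notMem hxB, mul_zero, sub_zero]
      have hsq : ‖x‖ ^ 2 ≤ 4 * R ^ 2 := by nlinarith [norm_nonneg x]
      have hsq' : R ^ 2 ≤ ‖x‖ ^ 2 := pow_le_pow_left₀ hR0.le hx2 2
      have harg : 1 ≤ κ * tal s x - 1 := by
        rw [tal, Real.rpow_neg (base_pos x).le, hκ, ← div_eq_mul_inv,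
          ← Real.div_rpow hb.le (base_pos x).le]
        have h1 : (2 : ℝ) ≤ (1 + 16 * R ^ 2) / (1 + ‖x‖ ^ 2) := by
          rw [le_div_iff₀ (base_pos x)]; nlinarith
        linarith [Real.self_le_rpow_of_one_le (by linarith : (1 : ℝ) ≤
          (1 + 16 * R ^ 2) / (1 + ‖x‖ ^ 2)) (by rw [hs]; linarith : 1 ≤ s)]
      have hlow : 4 * (K / R ^ (n + 1)) ≤ 2 * lap (tal (n := n) s) x := by
        rw [hl]
        have e1 : (5 * R ^ 2) ^ (-s - 2) = 5 ^ (-s - 2) / R ^ (n + 3) := by
          rw [Real.mul_rpow (by norm_num) (sq_nonneg R), ← Real.rpow_natCast R 2,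
            ← Real.rpow_mul hR0.le, div_eq_mul_inv, ← Real.rpow_natCast R (n + 3),
            ← Real.rpow_neg hR0.le]
          congr 2
          rw [hs]; push_cast; ring
        have e2 : (5 * R ^ 2) ^ (-s - 2) ≤ (1 + ‖x‖ ^ 2) ^ (-s - 2) :=
          Real.rpow_le_rpow_of_nonpos (base_pos x) (by nlinarith) (by rw [hs]; linarith)
        rw [e1] at e2
        have e3 : R ^ 2 / 2 ≤ ‖x‖ ^ 2 - n := by nlinarith
        have e4 := mul_le_mul (mul_le_mul_of_nonneg_left e2 (by linarith : (0:ℝ) ≤ (n:ℝ) - 1)) e3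
          (by positivity) (mul_nonneg (by linarith) he.le)
        refine le_trans (le_of_eq ?_) (mul_le_mul_of_nonneg_left e4 zero_le_two)
        rw [hK, pow_add R n 3, pow_succ R n]
        field_simp
      have := ramp1_ge harg
      have hl0 : 0 ≤ lap (tal (n := n) s) x := by
        have : 0 ≤ K / R ^ (n + 1) := by positivity
        linarith
      calc K / R ^ (n + 1) * κ * u x ≤ (1 / 2 * lap (tal (n := n) s) x) * κ * u x :=
            mul_le_mul_of_nonneg_right
              (mul_le_mul_of_nonneg_right (by linarith) hκ0.le) (hu0 x)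
        _ ≤ (ramp1 (κ * tal s x - 1) * lap (tal (n := n) s) x) * κ * u x :=
            mul_le_mul_of_nonneg_right
              (mul_le_mul_of_nonneg_right (mul_le_mul_of_nonneg_right this hl0) hκ0.le) (hu0 x)
        _ = _ := by ring
    rw [indicator_of_notMem hxS, mul_zero, zero_sub]
    by_cases hxB : x ∈ Bn
    · rw [indicator_of_mem hxB]
      have hn0 : -N ≤ lap (tal (n := n) s) x := by
        rw [hl, hN]
        have e1 : (1 + ‖x‖ ^ 2) ^ (-s - 2) ≤ 1 :=
          Real.rpow_le_one_of_one_le_of_nonpos (by nlinarith) (by rw [hs]; linarith)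
        nlinarith [mul_le_mul_of_nonneg_left e1 hN0, mul_nonneg (mul_nonneg (sub_nonneg.2
          (by linarith : (1:ℝ) ≤ n)) he.le) (sq_nonneg ‖x‖)]
      calc -(N * κ * u x) = (-N) * κ * u x := by ring
        _ ≤ (ramp1 (κ * tal s x - 1) * lap (tal (n := n) s) x) * κ * u x := by
            refine mul_le_mul_of_nonneg_right (mul_le_mul_of_nonneg_right ?_ hκ0.le) (hu0 x)
            rcases le_total 0 (lap (tal (n := n) s) x) with h | h
            · exact le_trans (neg_nonpos.2 hN0) (mul_nonneg hr1.1 h)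
            · nlinarith [hr1.2]
        _ = _ := by ring
    · rw [indicator_of_notMem hxB, mul_zero, neg_zero]
      rw [hBn, mem_closedBall_zero_iff, not_le] at hxB
      refine mul_nonneg (hu0 x) (mul_nonneg (mul_nonneg hκ0.le hr1.1) ?_)
      rw [hl]
      exact mul_nonneg (mul_nonneg (by linarith) he.le) (by nlinarith)
  have iS : Integrable (S.indicator u) :=
    integrable_indicator hu (measurableSet_shell R) sdiff_subset
  have iB : Integrable (Bn.indicator u) :=
    integrable_indicator hu measurableSet_closedBall subset_rfl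
  have iφ : Integrable fun x => u x * lap φ x := by
    refine (hu.mul (continuous_lap hφd)).integrable_of_hasCompactSupport ?_
    refine HasCompactSupport.of_support_subset_isCompact hφc fun x hx => ?_
    by_contra h
    refine hx ?_
    show u x * lap φ x = 0
    rw [lap, Finset.sum_eq_zero fun i _ => ?_, mul_zero]
    rw [pd_congr (((isClosed_tsupport φ).isOpen_compl.eventually_mem h).mono
      fun y hy => pd_eq_zero_of_notMem i hy) i]
    simp [pd]
  have h := integral_mono ((iS.const_mul (K / R ^ (n + 1) * κ)).sub (iB.const_mul (N * κ))) iφ hpw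
  rw [integral_sub' (iS.const_mul _) (iB.const_mul _), integral_const_mul, integral_const_mul,
    integral_indicator (measurableSet_shell R), integral_indicator measurableSet_closedBall, ← hI] at h
  have h' : K / R ^ (n + 1) * (∫ x in S, u x) ≤ N * I :=
    le_of_mul_le_mul_right (by linarith) hκ0
  rw [div_mul_eq_mul_div, le_div_iff₀ hK0]
  rw [div_mul_eq_mul_div, div_le_iff₀ (pow_pos hR0 _)] at h'
  linarith

/-- The integral of `v^p` over a ball is `O(R^(n-1))` when `-Δu = v^p`. -/
theorem ball_bound (hn : 3 ≤ n) {p : ℝ} (hp : 0 ≤ p) (hu : Continuous u) (hv : Continuous v)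
    (hu0 : ∀ x, 0 ≤ u x) (hv0 : ∀ x, 0 ≤ v x) (hu2 : ContDiffOn ℝ 2 u {0}ᶜ)
    (heq : ∀ x ≠ 0, lap u x = -(v x ^ p)) :
    ∃ C : ℝ, 0 ≤ C ∧ ∀ R : ℝ, 2 * n ≤ R →
      ∫ x in closedBall 0 R, v x ^ p ≤ C * R ^ (n - 1) := by
  have hvp : Continuous fun x => v x ^ p := hv.rpow_const fun _ => Or.inr hp
  obtain ⟨C, hC, hshell⟩ := shell_bound hn hu hu0 hu2 fun x hx => by
    rw [heq x hx]; exact neg_nonpos.2 (Real.rpow_nonneg (hv0 x) _)
  obtain ⟨B, hB, hcut⟩ := cut_deriv_bounds n
  refine ⟨B * C, mul_nonneg hB.le hC, fun R hR => ?_⟩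
  have hn3 : (3 : ℝ) ≤ n := by exact_mod_cast hn
  have hR0 : 0 < R := by linarith
  have hcs : HasCompactSupport (cut n R) :=
    HasCompactSupport.of_support_subset_isCompact (isCompact_closedBall 0 (2 * R)) fun x hx => by
      rw [mem_closedBall_zero_iff]
      by_contra h
      exact hx (cut_eq_zero hR0 (not_le.1 h).le)
  have hlim := green_limit (G := fun x => -u x) hn hu.neg hu2.neg (φ := cut n R) contDiff_cut hcs
  obtain ⟨M, hM⟩ := (isCompact_closedBall (0 : EuclideanSpace ℝ (Fin n)) 1).exists_bound_of_continuousOn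
    hvp.continuousOn
  have hM0 : 0 ≤ M := (norm_nonneg _).trans (hM 0 (by simp))
  set V := volume.real (closedBall (0 : EuclideanSpace ℝ (Fin n)) 1) with hV
  have low : ∀ ρ : ℝ, 0 < ρ → 2 * ρ ≤ 1 →
      (∫ x in closedBall 0 R, v x ^ p) - M * ((2 * ρ) ^ n * V) ≤
        ∫ x, lap (fun y => -u y) x * ((1 - cut n ρ x) * cut n R x) := by
    intro ρ hρ hρ1
    have hae : (fun x => v x ^ p * ((1 - cut n ρ x) * cut n R x)) =ᵐ[volume]
        fun x => lap (fun y => -u y) x * ((1 - cut n ρ x) * cut n R x) := by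
      refine Eventually.of_forall fun x => ?_
      by_cases hx : x = 0
      · have : cut n ρ x = 1 := cut_eq_one hρ (by simp [hx, hρ.le])
        simp [this]
      · simp only [lap_neg, heq x hx, neg_neg]
    rw [← integral_congr_ae hae]
    have i1 := integrable_indicator hvp measurableSet_closedBall
      (subset_refl (closedBall (0 : EuclideanSpace ℝ (Fin n)) R))
    have i2 : Integrable ((closedBall (0 : EuclideanSpace ℝ (Fin n)) (2 * ρ)).indicator
        fun _ => M) := integrable_indicator continuous_const measurableSet_closedBall subset_rfl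
    have i3 : Integrable fun x => v x ^ p * ((1 - cut n ρ x) * cut n R x) :=
      (hvp.mul ((continuous_const.sub contDiff_cut.continuous).mul
        contDiff_cut.continuous)).integrable_of_hasCompactSupport (hcs.mul_left.mul_left)
    have h := integral_mono (i1.sub i2) i3 fun x => ?_
    · rw [integral_sub' i1 i2, integral_indicator measurableSet_closedBall,
        integral_indicator measurableSet_closedBall, setIntegral_const, smul_eq_mul,
        Measure.addHaar_real_closedBall' volume 0 (by positivity), finrank_euclideanSpace_fin,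
        ← hV] at h
      linarith
    simp only [Pi.sub_apply]
    have h0 : 0 ≤ v x ^ p := Real.rpow_nonneg (hv0 x) _
    have hnn : 0 ≤ v x ^ p * ((1 - cut n ρ x) * cut n R x) :=
      mul_nonneg h0 (mul_nonneg (sub_nonneg.2 cut_le_one) cut_nonneg)
    by_cases h2 : x ∈ closedBall (0 : EuclideanSpace ℝ (Fin n)) (2 * ρ)
    · rw [indicator_of_mem h2]
      have hb : v x ^ p ≤ M :=
        (le_abs_self _).trans (hM x (closedBall_subset_closedBall hρ1 h2))
      have : (closedBall (0 : EuclideanSpace ℝ (Fin n)) R).indicator (fun y => v y ^ p) x ≤ v x ^ p :=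
        indicator_le_self' (fun y _ => Real.rpow_nonneg (hv0 y) _) x
      linarith
    rw [indicator_of_notMem h2, sub_zero]
    by_cases h1 : x ∈ closedBall (0 : EuclideanSpace ℝ (Fin n)) R
    · rw [indicator_of_mem h1]
      rw [mem_closedBall_zero_iff] at h1 h2
      rw [cut_eq_zero hρ (not_le.1 h2).le, cut_eq_one hR0 h1]
      simp
    · rw [indicator_of_notMem h1]; exact hnn
  have hup : ∫ x, -u x * lap (cut n R) x ≤ B / R ^ 2 * (C * R ^ (n + 1)) := by
    refine le_trans ?_ (mul_le_mul_of_nonneg_left (hshell R hR) (by positivity))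
    rw [← integral_indicator (measurableSet_shell R), ← integral_const_mul]
    refine integral_mono ((hu.neg.mul (continuous_lap contDiff_cut)).integrable_of_hasCompactSupport
        (HasCompactSupport.of_support_subset_isCompact (isCompact_closedBall 0 (2 * R)) fun x hx => ?_))
      ((integrable_indicator hu (measurableSet_shell R) sdiff_subset).const_mul _) fun x => ?_
    · rw [mem_closedBall_zero_iff]
      by_contra h
      exact hx (by simp [(pd_cut_eq_zero hR0 (Or.inr (not_le.1 h))).2])
    by_cases hx : x ∈ closedBall (0 : EuclideanSpace ℝ (Fin n)) (2 * R) \ ball 0 R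
    · rw [indicator_of_mem hx]
      refine le_trans (le_abs_self _) ?_
      rw [abs_mul, abs_neg, abs_of_nonneg (hu0 x), mul_comm]
      exact mul_le_mul_of_nonneg_right (hcut R hR0 x).2 (hu0 x)
    · rw [indicator_of_notMem hx, mul_zero]
      simp only [Set.mem_sdiff, mem_closedBall_zero_iff, mem_ball_zero_iff, not_and_or, not_le,
        not_not] at hx
      rw [(pd_cut_eq_zero hR0 hx.symm).2, mul_zero]
  have key : ∫ x in closedBall 0 R, v x ^ p ≤ ∫ x, -u x * lap (cut n R) x := by
    refine le_of_tendsto_of_tendsto (b := 𝓝[>] (0 : ℝ))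
      (f := fun ρ => (∫ x in closedBall 0 R, v x ^ p) - M * ((2 * ρ) ^ n * V)) ?_ hlim ?_
    · have : Tendsto (fun ρ : ℝ => (∫ x in closedBall 0 R, v x ^ p) - M * ((2 * ρ) ^ n * V))
          (𝓝 0) (𝓝 ((∫ x in closedBall 0 R, v x ^ p) - M * ((2 * 0) ^ n * V))) :=
        (by fun_prop : Continuous fun ρ : ℝ =>
          (∫ x in closedBall 0 R, v x ^ p) - M * ((2 * ρ) ^ n * V)).tendsto 0
      simpa [zero_pow (by omega : n ≠ 0)] using this.mono_left nhdsWithin_le_nhds
    · exact (eventually_mem_nhdsWithin.and (nhdsWithin_le_nhds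
        (eventually_le_nhds (by norm_num : (0:ℝ) < 1 / 2)))).mono
          fun ρ h => low ρ h.1 (by linarith [h.2])
  refine key.trans (hup.trans_eq ?_)
  obtain ⟨m, rfl⟩ : ∃ m, n = m + 3 := ⟨n - 3, by omega⟩
  rw [show m + 3 - 1 = m + 2 by omega]
  field_simp
  ring

end Vale.Agent.P100.Cmp
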