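import Vale.Agent.P100.Sys.Cutoff

/-!
P100: a convex `C²` ramp, the chain rule for the Laplacian, and the radial comparison functions
`(1 + |x|²)^(-s)`.
-/

open Filter Topology Set

namespace Vale.Agent.P100.Cmp

open Vale.Agent.P100.Sys

/-- The convex ramp: zero for `t ≤ 0`, asymptotic to `t - 1`. -/
noncomputable def ramp (t : ℝ) : ℝ := if t ≤ 0 then 0 else t - 1 + 1 / (t ^ 2 + t + 1)

/-- Its derivative. -/
noncomputable def ramp1 (t : ℝ) : ℝ :=
  if t ≤ 0 then 0 else 1 - (2 * t + 1) / (t ^ 2 + t + 1) ^ 2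

/-- Its second derivative. -/
noncomputable def ramp2 (t : ℝ) : ℝ :=
  if t ≤ 0 then 0 else 6 * (t * (t + 1)) / (t ^ 2 + t + 1) ^ 3

/-- A zero continuation is differentiable when the continued function is flat at zero. -/
theorem hasDerivAt_glue {g g' : ℝ → ℝ} (h : ∀ t, 0 ≤ t → HasDerivAt g (g' t) t) (h0 : g 0 = 0)
    (h1 : g' 0 = 0) (t : ℝ) :
    HasDerivAt (fun s => if s ≤ 0 then 0 else g s) (if t ≤ 0 then 0 else g' t) t := by
  rcases lt_trichotomy t 0 with ht | ht | ht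
  · rw [if_pos ht.le]
    exact (hasDerivAt_const t (0 : ℝ)).congr_of_eventuallyEq
      ((eventually_le_nhds ht).mono fun s hs => if_pos hs)
  · subst ht
    rw [if_pos le_rfl]
    have a : HasDerivWithinAt (fun s : ℝ => if s ≤ 0 then 0 else g s) 0 (Iic 0) 0 :=
      (hasDerivWithinAt_const (0 : ℝ) (Iic 0) (0 : ℝ)).congr (fun s hs => if_pos hs) (if_pos le_rfl)
    have hg := h 0 le_rfl
    rw [h1] at hg
    have b : HasDerivWithinAt (fun s : ℝ => if s ≤ 0 then 0 else g s) 0 (Ici 0) 0 :=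
      hg.hasDerivWithinAt.congr (fun s hs => by
        rcases (show (0 : ℝ) ≤ s from hs).eq_or_lt with e | e
        · subst e; simp [h0]
        · exact if_neg (not_le.2 e)) (by simp [h0])
    simpa [Iic_union_Ici] using a.union b
  · rw [if_neg (not_le.2 ht)]
    exact (h t ht.le).congr_of_eventuallyEq
      ((eventually_gt_nhds ht).mono fun s hs => if_neg (not_le.2 hs))

theorem hasDerivAt_quad (t : ℝ) : HasDerivAt (fun s : ℝ => s ^ 2 + s + 1) (2 * t + 1) t := by
  simpa using (((hasDerivAt_pow 2 t).add (hasDerivAt_id t)).add_const (1 : ℝ))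

theorem quad_pos (t : ℝ) : 0 < t ^ 2 + t + 1 := by nlinarith [sq_nonneg (2 * t + 1)]

theorem hasDerivAt_ramp (t : ℝ) : HasDerivAt ramp (ramp1 t) t := by
  refine hasDerivAt_glue (g := fun s => s - 1 + 1 / (s ^ 2 + s + 1))
    (g' := fun s => 1 - (2 * s + 1) / (s ^ 2 + s + 1) ^ 2) (fun s _ => ?_) (by norm_num)
    (by norm_num) t
  have h := ((hasDerivAt_id s).sub_const (1 : ℝ)).add
    ((hasDerivAt_const s (1 : ℝ)).div (hasDerivAt_quad s) (quad_pos s).ne')
  exact h.congr_deriv (by ring)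

theorem hasDerivAt_ramp1 (t : ℝ) : HasDerivAt ramp1 (ramp2 t) t := by
  refine hasDerivAt_glue (g := fun s => 1 - (2 * s + 1) / (s ^ 2 + s + 1) ^ 2)
    (g' := fun s => 6 * (s * (s + 1)) / (s ^ 2 + s + 1) ^ 3) (fun s _ => ?_) (by norm_num)
    (by norm_num) t
  have h := (hasDerivAt_const s (1 : ℝ)).sub
    ((((hasDerivAt_id s).const_mul (2 : ℝ)).add_const 1).div ((hasDerivAt_quad s).pow 2)
      (pow_ne_zero 2 (quad_pos s).ne'))
  refine h.congr_deriv ?_
  have := (quad_pos s).ne'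
  simp only [Pi.pow_apply, id, Nat.cast_ofNat, mul_one]
  field_simp
  ring

theorem continuous_ramp2 : Continuous ramp2 := by
  refine continuous_if_le continuous_id continuous_const continuousOn_const ?_ fun t ht => ?_
  · exact (Continuous.div (by fun_prop) (by fun_prop) fun t =>
      pow_ne_zero 3 (quad_pos t).ne').continuousOn
  · subst ht; norm_num

theorem contDiff_ramp : ContDiff ℝ 2 ramp := by
  have h0 : deriv ramp = ramp1 := funext fun t => (hasDerivAt_ramp t).deriv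
  have h1 : deriv ramp1 = ramp2 := funext fun t => (hasDerivAt_ramp1 t).deriv
  rw [show (2 : WithTop ℕ∞) = 1 + 1 from rfl, contDiff_succ_iff_deriv]
  refine ⟨fun t => (hasDerivAt_ramp t).differentiableAt, by simp, ?_⟩
  rw [h0, contDiff_one_iff_deriv]
  exact ⟨fun t => (hasDerivAt_ramp1 t).differentiableAt, h1 ▸ continuous_ramp2⟩

theorem ramp_eq_zero {t : ℝ} (ht : t ≤ 0) : ramp t = 0 := if_pos ht

theorem ramp2_nonneg (t : ℝ) : 0 ≤ ramp2 t := by
  rw [ramp2]; split_ifs with h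
  · exact le_rfl
  · rw [not_le] at h
    have := quad_pos t
    positivity

theorem ramp1_mem (t : ℝ) : 0 ≤ ramp1 t ∧ ramp1 t ≤ 1 := by
  rw [ramp1]; split_ifs with h
  · norm_num
  · rw [not_le] at h
    have hq : 0 < (t ^ 2 + t + 1) ^ 2 := pow_pos (quad_pos t) 2
    refine ⟨sub_nonneg.2 ((div_le_one hq).2 ?_), sub_le_self _ (by positivity)⟩
    nlinarith [mul_pos (mul_pos h h) (mul_pos h h)]

theorem ramp1_ge {t : ℝ} (ht : 1 ≤ t) : 1 / 2 ≤ ramp1 t := by
  rw [ramp1, if_neg (by linarith)]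
  have hq : 0 < (t ^ 2 + t + 1) ^ 2 := pow_pos (quad_pos t) 2
  have : (2 * t + 1) / (t ^ 2 + t + 1) ^ 2 ≤ 1 / 2 := by
    rw [div_le_iff₀ hq]; nlinarith
  linarith

theorem ramp_nonneg (t : ℝ) : 0 ≤ ramp t := by
  rw [ramp]; split_ifs with h
  · exact le_rfl
  · rw [not_le] at h
    have hq := quad_pos t
    have e : t - 1 + 1 / (t ^ 2 + t + 1) = t ^ 3 / (t ^ 2 + t + 1) := by field_simp; ring
    rw [e]; positivity

theorem ramp_le {t v : ℝ} (hv : 0 ≤ v) (htv : t ≤ v) : ramp t ≤ v := by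
  rw [ramp]; split_ifs with h
  · exact hv
  · rw [not_le] at h
    have : 1 / (t ^ 2 + t + 1) ≤ 1 := by rw [div_le_one (quad_pos t)]; nlinarith
    linarith

theorem ramp_pos {t : ℝ} (ht : 0 < t) : 0 < ramp t := by
  rw [ramp, if_neg (not_le.2 ht)]
  have hq := quad_pos t
  have e : t - 1 + 1 / (t ^ 2 + t + 1) = t ^ 3 / (t ^ 2 + t + 1) := by field_simp; ring
  rw [e]; positivity

variable {n : ℕ} {F : EuclideanSpace ℝ (Fin n) → ℝ} {x : EuclideanSpace ℝ (Fin n)}

theorem pd_comp {h h1 : ℝ → ℝ} (hh : HasDerivAt h (h1 (F x)) (F x)) (hF : DifferentiableAt ℝ F x)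
    (i : Fin n) : pd i (fun y => h (F y)) x = h1 (F x) * pd i F x := by
  show fderiv ℝ (h ∘ F) x _ = _
  rw [(hh.comp_hasFDerivAt x hF.hasFDerivAt).fderiv]
  simp [pd]

theorem differentiableAt_pd (hF : ContDiffAt ℝ 2 F x) (i : Fin n) :
    DifferentiableAt ℝ (pd i F) x :=
  ((hF.fderiv_right (m := 1) (by norm_num)).differentiableAt (by norm_num)).clm_apply
    (differentiableAt_const _)

/-- The chain rule for the Laplacian. -/
theorem lap_comp {h h1 h2 : ℝ → ℝ} (hh : ∀ᶠ t in 𝓝 (F x), HasDerivAt h (h1 t) t)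
    (hh1 : HasDerivAt h1 (h2 (F x)) (F x)) (hF : ContDiffAt ℝ 2 F x) :
    lap (fun y => h (F y)) x = h1 (F x) * lap F x + h2 (F x) * ∑ i, pd i F x ^ 2 := by
  have hev : ∀ᶠ y in 𝓝 x, HasDerivAt h (h1 (F y)) (F y) ∧ DifferentiableAt ℝ F y :=
    (hF.continuousAt.eventually hh).and
      ((hF.eventually (by simp)).mono fun y hy => hy.differentiableAt (by norm_num))
  simp only [lap, Finset.mul_sum, ← Finset.sum_add_distrib]
  refine Finset.sum_congr rfl fun i _ => ?_
  have e : pd i (fun y => h (F y)) =ᶠ[𝓝 x] fun y => h1 (F y) * pd i F y :=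
    hev.mono fun y hy => pd_comp hy.1 hy.2 i
  have hd : DifferentiableAt ℝ F x := hF.differentiableAt (by norm_num)
  have h' : DifferentiableAt ℝ (fun y => h1 (F y)) x := hh1.differentiableAt.comp x hd
  rw [pd_congr e, pd_mul h' (differentiableAt_pd hF i), pd_comp hh1 hd]
  ring

/-- The product rule for the Laplacian. -/
theorem lap_mul {G : EuclideanSpace ℝ (Fin n) → ℝ} (hF : ContDiffAt ℝ 2 F x)
    (hG : ContDiffAt ℝ 2 G x) :
    lap (fun y => F y * G y) x =
      F x * lap G x + 2 * ∑ i, pd i F x * pd i G x + lap F x * G x := by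
  have hev : ∀ᶠ y in 𝓝 x, DifferentiableAt ℝ F y ∧ DifferentiableAt ℝ G y :=
    ((hF.eventually (by simp)).mono fun y hy => hy.differentiableAt (by norm_num)).and
      ((hG.eventually (by simp)).mono fun y hy => hy.differentiableAt (by norm_num))
  simp only [lap, Finset.mul_sum, Finset.sum_mul, ← Finset.sum_add_distrib]
  refine Finset.sum_congr rfl fun i _ => ?_
  have e : pd i (fun y => F y * G y) =ᶠ[𝓝 x] fun y => F y * pd i G y + pd i F y * G y :=
    hev.mono fun y hy => pd_mul hy.1 hy.2 i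
  have hd := hev.self_of_nhds
  have a1 : DifferentiableAt ℝ (fun y => F y * pd i G y) x := hd.1.mul (differentiableAt_pd hG i)
  have a2 : DifferentiableAt ℝ (fun y => pd i F y * G y) x := (differentiableAt_pd hF i).mul hd.2
  rw [pd_congr e, pd_add a1 a2, pd_mul hd.1 (differentiableAt_pd hG i),
    pd_mul (differentiableAt_pd hF i) hd.2]
  ring

/-- The comparison function `(1 + |x|²)^(-s)`. -/
noncomputable def tal (s : ℝ) (x : EuclideanSpace ℝ (Fin n)) : ℝ := (1 + ‖x‖ ^ 2) ^ (-s)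

theorem base_pos (x : EuclideanSpace ℝ (Fin n)) : (0 : ℝ) < 1 + ‖x‖ ^ 2 := by positivity

theorem contDiff_tal (s : ℝ) : ContDiff ℝ 2 (tal (n := n) s) :=
  (contDiff_const.add (contDiff_norm_sq ℝ)).rpow_const_of_ne fun x => (base_pos x).ne'

theorem differentiableAt_base :
    DifferentiableAt ℝ (fun y : EuclideanSpace ℝ (Fin n) => 1 + ‖y‖ ^ 2) x :=
  (differentiableAt_id.norm_sq ℝ).const_add 1

theorem pd_base (i : Fin n) :
    pd i (fun y : EuclideanSpace ℝ (Fin n) => 1 + ‖y‖ ^ 2) x = 2 * x i := by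
  have h := (hasStrictFDerivAt_norm_sq x).hasFDerivAt.const_add 1
  show fderiv ℝ _ x _ = _
  rw [h.fderiv]
  simp [EuclideanSpace.inner_single_right]

theorem pd_tal (s : ℝ) (i : Fin n) :
    pd i (tal s) x = -(2 * s) * x i * (1 + ‖x‖ ^ 2) ^ (-s - 1) := by
  show pd i (fun y => (fun t : ℝ => t ^ (-s)) (1 + ‖y‖ ^ 2)) x = _
  rw [pd_comp (h1 := fun t => -s * t ^ (-s - 1))
    (Real.hasDerivAt_rpow_const (Or.inl (base_pos x).ne')) differentiableAt_base, pd_base]
  ring

theorem lap_tal (s : ℝ) :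
    lap (tal (n := n) s) x = 2 * s * (1 + ‖x‖ ^ 2) ^ (-s - 2) *
      (2 * (s + 1) * ‖x‖ ^ 2 - n * (1 + ‖x‖ ^ 2)) := by
  have hb := base_pos x
  have e2 : ∀ i : Fin n, pd i (pd i fun y : EuclideanSpace ℝ (Fin n) => 1 + ‖y‖ ^ 2) x = 2 := by
    intro i
    rw [pd_congr (Eventually.of_forall fun y => pd_base (x := y) i) i]
    have h := (EuclideanSpace.proj (𝕜 := ℝ) i).hasFDerivAt (x := x) |>.const_mul (2 : ℝ)
    show fderiv ℝ (fun y : EuclideanSpace ℝ (Fin n) => 2 * y i) x _ = _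
    rw [show fderiv ℝ (fun y : EuclideanSpace ℝ (Fin n) => 2 * y i) x = _ from h.fderiv]
    simp
  have e : ∑ i, x i * x i = ‖x‖ ^ 2 := by
    rw [EuclideanSpace.norm_sq_eq]; simp [pow_two]
  show lap (fun y => (fun t : ℝ => t ^ (-s)) (1 + ‖y‖ ^ 2)) x = _
  rw [lap_comp (h := fun t : ℝ => t ^ (-s)) (F := fun y => 1 + ‖y‖ ^ 2)
    (h1 := fun t => -s * t ^ (-s - 1)) (h2 := fun t => -s * ((-s - 1) * t ^ (-s - 1 - 1)))
    ((eventually_ne_nhds hb.ne').mono fun t ht => Real.hasDerivAt_rpow_const (Or.inl ht))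
    ((Real.hasDerivAt_rpow_const (Or.inl hb.ne')).const_mul _) (contDiff_const.add (contDiff_norm_sq ℝ)).contDiffAt,
    show -s - 1 - 1 = -s - 2 by ring, show -s - 1 = (-s - 2) + 1 by ring, Real.rpow_add_one hb.ne']
  simp only [lap, e2, pd_base, Finset.sum_const, Finset.card_univ, Fintype.card_fin, nsmul_eq_mul]
  rw [show ∑ i, (2 * x i) ^ 2 = 4 * ∑ i, x i * x i by
    rw [Finset.mul_sum]; exact Finset.sum_congr rfl fun i _ => by ring, e]
  ring

end Vale.Agent.P100.Cmp
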