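import Vale.Agent.P100.Cmp.Ramp

/-!
P100: Green's identity for functions that are `C²` off the origin and continuous.
-/

open MeasureTheory Filter Topology Set Metric

namespace Vale.Agent.P100.Cmp

open Vale.Agent.P100.Sys

variable {n : ℕ} {G φ : EuclideanSpace ℝ (Fin n) → ℝ}

theorem contDiff_pd {k : EuclideanSpace ℝ (Fin n) → ℝ} (hk : ContDiff ℝ 2 k) (i : Fin n) :
    ContDiff ℝ 1 (pd i k) :=
  (hk.fderiv_right (m := 1) (by norm_num)).clm_apply contDiff_const

theorem continuous_lap {k : EuclideanSpace ℝ (Fin n) → ℝ} (hk : ContDiff ℝ 2 k) :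
    Continuous (lap k) :=
  continuous_finsetSum _ fun i _ =>
    ((contDiff_pd hk i).continuous_fderiv (by norm_num)).clm_apply continuous_const

theorem continuousOn_lap (hG : ContDiffOn ℝ 2 G {0}ᶜ) : ContinuousOn (lap G) {0}ᶜ :=
  continuousOn_finsetSum _ fun i _ => continuousOn_pd isOpen_compl_singleton
    (contDiffOn_pd isOpen_compl_singleton hG (by norm_num) i) le_rfl i

/-- Green's identity against a test function supported off the origin. -/
theorem green (hG : ContDiffOn ℝ 2 G {0}ᶜ) (hφ : ContDiff ℝ 2 φ) (hc : HasCompactSupport φ)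
    (hs : tsupport φ ⊆ {0}ᶜ) : ∫ x, G x * lap φ x = ∫ x, lap G x * φ x := by
  have hΩ : IsOpen ({0}ᶜ : Set (EuclideanSpace ℝ (Fin n))) := isOpen_compl_singleton
  have hsub : ∀ i, tsupport (pd i φ) ⊆ tsupport φ := fun i =>
    closure_minimal (fun x hx => by
      by_contra h
      exact hx (pd_eq_zero_of_notMem i h)) (isClosed_tsupport φ)
  have hc' : ∀ i, HasCompactSupport (pd i φ) := fun i =>
    hc.of_isClosed_subset (isClosed_tsupport _) (hsub i)
  have hG1 : ∀ i, ContDiffOn ℝ 1 (pd i G) {0}ᶜ := contDiffOn_pd hΩ hG (by norm_num)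
  simp only [lap, Finset.mul_sum, Finset.sum_mul]
  rw [integral_finsetSum, integral_finsetSum]
  · refine Finset.sum_congr rfl fun i _ => ?_
    rw [integral_pd_mul hΩ (hG.of_le (by norm_num)) (contDiff_pd hφ i) (hc' i) ((hsub i).trans hs) i,
      integral_pd_mul hΩ (hG1 i) (hφ.of_le (by norm_num)) hc hs i, neg_neg]
  · exact fun i _ => integrable_of_support hΩ hc hs
      ((continuousOn_pd hΩ (hG1 i) le_rfl i).mul hφ.continuous.continuousOn)
      fun x hx => by simp [image_eq_zero_of_notMem_tsupport hx]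
  · exact fun i _ => integrable_of_support hΩ hc hs
      (hG.continuousOn.mul (((contDiff_pd hφ i).continuous_fderiv (by norm_num)).clm_apply
        continuous_const).continuousOn)
      fun x hx => by simp [pd_eq_zero_of_notMem i fun h => hx (hsub i h)]

theorem pd_scale {k : EuclideanSpace ℝ (Fin n) → ℝ} (hk : Differentiable ℝ k) (c : ℝ)
    (i : Fin n) (x : EuclideanSpace ℝ (Fin n)) :
    pd i (fun y => k (c • y)) x = c * pd i k (c • x) := by
  have h := (hk (c • x)).hasFDerivAt.comp x ((hasFDerivAt_id x).const_smul c)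
  show fderiv ℝ (fun y => k (c • y)) x _ = _
  rw [show (fun y => k (c • y)) = k ∘ (HSMul.hSMul c) from rfl, h.fderiv]
  simp [pd]

theorem lap_cut {R : ℝ} (x : EuclideanSpace ℝ (Fin n)) :
    lap (cut n R) x = R⁻¹ * R⁻¹ * lap (bump n) (R⁻¹ • x) := by
  have hb : ContDiff ℝ 2 (bump n) := (bump n).contDiff
  simp only [lap, Finset.mul_sum]
  refine Finset.sum_congr rfl fun i _ => ?_
  have hd : Differentiable ℝ (pd i (bump n)) := (contDiff_pd hb i).differentiable (by norm_num)
  show pd i (pd i fun y => bump n (R⁻¹ • y)) x = _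
  rw [pd_congr (Eventually.of_forall fun y => pd_scale (hb.differentiable (by norm_num)) R⁻¹ i y) i,
    pd_const_mul (F := fun y => pd i (bump n) (R⁻¹ • y))
      ((hd _).comp x (differentiableAt_id.const_smul R⁻¹)), pd_scale hd]
  ring

theorem pd_cut_eq_zero {R : ℝ} (hR : 0 < R) {x : EuclideanSpace ℝ (Fin n)}
    (hx : ‖x‖ < R ∨ 2 * R < ‖x‖) :
    (∀ i, pd i (cut n R) x = 0) ∧ lap (cut n R) x = 0 := by
  have key : ∃ a : ℝ, cut n R =ᶠ[𝓝 x] fun _ => a := by
    rcases hx with h | h
    · exact ⟨1, ((continuous_norm.tendsto x).eventually (eventually_lt_nhds h)).mono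
        fun y hy => cut_eq_one hR hy.le⟩
    · exact ⟨0, ((continuous_norm.tendsto x).eventually (eventually_gt_nhds h)).mono
        fun y hy => cut_eq_zero hR hy.le⟩
  obtain ⟨a, ha⟩ := key
  have h1 : ∀ᶠ y in 𝓝 x, ∀ i, pd i (cut n R) y = 0 := ha.eventually_nhds.mono fun y hy i => by
    rw [pd_congr hy i]; simp [pd]
  refine ⟨h1.self_of_nhds, Finset.sum_eq_zero fun i _ => ?_⟩
  rw [pd_congr (h1.mono fun y hy => hy i) i]
  simp [pd]

theorem cut_deriv_bounds (n : ℕ) :
    ∃ B : ℝ, 0 < B ∧ ∀ R : ℝ, 0 < R → ∀ x : EuclideanSpace ℝ (Fin n),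
      (∀ i, |pd i (cut n R) x| ≤ B / R) ∧ |lap (cut n R) x| ≤ B / R ^ 2 := by
  obtain ⟨B₁, hB₁, h1⟩ := fderiv_cut_bound n
  have hb : ContDiff ℝ 2 (bump n) := (bump n).contDiff
  have hs : HasCompactSupport (lap (bump n)) := by
    refine HasCompactSupport.of_support_subset_isCompact (bump n).hasCompactSupport fun x hx => ?_
    by_contra h
    have h1 : ∀ᶠ y in 𝓝 x, ∀ i, pd i (bump n) y = 0 :=
      ((isClosed_tsupport _).isOpen_compl.eventually_mem h).mono fun y hy i =>
        pd_eq_zero_of_notMem i hy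
    refine hx (Finset.sum_eq_zero fun i _ => ?_)
    rw [pd_congr (h1.mono fun y hy => hy i) i]
    simp [pd]
  obtain ⟨B₂, h2⟩ := hs.exists_bound_of_continuous (continuous_lap hb)
  refine ⟨max B₁ B₂, lt_max_of_lt_left hB₁, fun R hR x => ⟨fun i => ?_, ?_⟩⟩
  · refine (le_trans ?_ (h1 R hR x)).trans
      (div_le_div_of_nonneg_right (le_max_left _ _) hR.le)
    simpa [pd] using (fderiv ℝ (cut n R) x).le_opNorm (EuclideanSpace.single i (1 : ℝ))
  · rw [lap_cut, abs_mul, abs_of_pos (by positivity : (0:ℝ) < R⁻¹ * R⁻¹)]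
    calc R⁻¹ * R⁻¹ * |lap (bump n) (R⁻¹ • x)| ≤ R⁻¹ * R⁻¹ * max B₁ B₂ :=
          mul_le_mul_of_nonneg_left ((h2 _).trans (le_max_right _ _)) (by positivity)
      _ = _ := by field_simp

/-- Green's identity across the origin, as a limit of punctured test functions. -/
theorem green_limit (hn : 3 ≤ n) (hGc : Continuous G) (hG : ContDiffOn ℝ 2 G {0}ᶜ)
    (hφ : ContDiff ℝ 2 φ) (hc : HasCompactSupport φ) :
    Tendsto (fun ρ : ℝ => ∫ x, lap G x * ((1 - cut n ρ x) * φ x)) (𝓝[>] 0)
      (𝓝 (∫ x, G x * lap φ x)) := by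
  obtain ⟨B, hB, hcut⟩ := cut_deriv_bounds n
  obtain ⟨M0, hM0⟩ := (isCompact_closedBall (0 : EuclideanSpace ℝ (Fin n)) 2).exists_bound_of_continuousOn
    hGc.continuousOn
  obtain ⟨M1, hM1⟩ := hc.exists_bound_of_continuous hφ.continuous
  have hcl : HasCompactSupport (lap φ) := by
    refine HasCompactSupport.of_support_subset_isCompact hc fun x hx => ?_
    by_contra h
    have h1 : ∀ᶠ y in 𝓝 x, ∀ i, pd i φ y = 0 :=
      ((isClosed_tsupport φ).isOpen_compl.eventually_mem h).mono fun y hy i =>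
        pd_eq_zero_of_notMem i hy
    refine hx (Finset.sum_eq_zero fun i _ => ?_)
    rw [pd_congr (h1.mono fun y hy => hy i) i]
    simp [pd]
  obtain ⟨M2, hM2⟩ := hcl.exists_bound_of_continuous (continuous_lap hφ)
  obtain ⟨M3, hM3⟩ := (hc.fderiv ℝ).exists_bound_of_continuous
    (hφ.continuous_fderiv (by norm_num))
  have m1 : 0 ≤ M1 := (norm_nonneg _).trans (hM1 0)
  have m2 : 0 ≤ M2 := (norm_nonneg _).trans (hM2 0)
  have m3 : 0 ≤ M3 := (norm_nonneg _).trans (hM3 0)
  have m0 : 0 ≤ M0 := (norm_nonneg _).trans (hM0 0 (by simp))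
  set C := M0 * (M2 + 2 * n * B * M3 + B * M1) with hC
  set V := volume.real (closedBall (0 : EuclideanSpace ℝ (Fin n)) 1) with hV
  have est : ∀ ρ : ℝ, 0 < ρ → ρ ≤ 1 →
      |(∫ x, lap G x * ((1 - cut n ρ x) * φ x)) - ∫ x, G x * lap φ x| ≤
        C * 2 ^ n * V * ρ ^ (n - 2) := by
    intro ρ hρ hρ1
    have hkd : ContDiff ℝ 2 fun x : EuclideanSpace ℝ (Fin n) => 1 - cut n ρ x :=
      contDiff_const.sub contDiff_cut
    set φ' := fun x => (1 - cut n ρ x) * φ x with hφ'
    have hd' : ContDiff ℝ 2 φ' := hkd.mul hφ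
    have hc' : HasCompactSupport φ' := hc.mul_left
    have hs' : tsupport φ' ⊆ {0}ᶜ := by
      intro x hx h0
      rw [mem_singleton_iff] at h0
      subst h0
      refine notMem_tsupport_iff_eventuallyEq.2 ?_ hx
      filter_upwards [ball_mem_nhds (0 : EuclideanSpace ℝ (Fin n)) hρ] with y hy
      simp [φ', cut_eq_one hρ (mem_ball_zero_iff.1 hy).le]
    rw [← green hG hd' hc' hs']
    have i1 : Integrable fun x => G x * lap φ' x := by
      refine (hGc.mul (continuous_lap hd')).integrable_of_hasCompactSupport ?_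
      refine HasCompactSupport.of_support_subset_isCompact hc' fun x hx => ?_
      by_contra h
      have h1 : ∀ᶠ y in 𝓝 x, ∀ i, pd i φ' y = 0 :=
        ((isClosed_tsupport φ').isOpen_compl.eventually_mem h).mono fun y hy i =>
          pd_eq_zero_of_notMem i hy
      refine hx ?_
      show G x * lap φ' x = 0
      rw [lap, Finset.sum_eq_zero fun i _ => ?_, mul_zero]
      rw [pd_congr (h1.mono fun y hy => hy i) i]
      simp [pd]
    have i2 : Integrable fun x => G x * lap φ x :=
      (hGc.mul (continuous_lap hφ)).integrable_of_hasCompactSupport hcl.mul_left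
    rw [← integral_sub i1 i2, ← Real.norm_eq_abs]
    have hzero : ∀ x ∉ closedBall (0 : EuclideanSpace ℝ (Fin n)) (2 * ρ),
        G x * lap φ' x - G x * lap φ x = 0 := fun x hx => by
      rw [mem_closedBall_zero_iff, not_le] at hx
      have he : φ' =ᶠ[𝓝 x] φ :=
        ((continuous_norm.tendsto x).eventually (eventually_gt_nhds hx)).mono
          fun y hy => by simp [φ', cut_eq_zero hρ hy.le]
      rw [sub_eq_zero]
      congr 1
      refine Finset.sum_congr rfl fun i _ => pd_congr ?_ i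
      exact he.eventually_nhds.mono fun y hy => pd_congr hy i
    have hbd : ∀ x ∈ closedBall (0 : EuclideanSpace ℝ (Fin n)) (2 * ρ),
        ‖G x * lap φ' x - G x * lap φ x‖ ≤ C / ρ ^ 2 := fun x hx => by
      have hG0 : |G x| ≤ M0 := hM0 x (closedBall_subset_closedBall (by linarith) hx)
      have e : lap φ' x - lap φ x = -(cut n ρ x * lap φ x) -
          2 * ∑ i, pd i (cut n ρ) x * pd i φ x - lap (cut n ρ) x * φ x := by
        have hs : φ' = fun y => φ y - cut n ρ y * φ y := by funext y; simp [φ']; ring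
        have hl : lap (fun y => φ y - cut n ρ y * φ y) x =
            lap φ x - lap (fun y => cut n ρ y * φ y) x := by
          simp only [lap, ← Finset.sum_sub_distrib]
          refine Finset.sum_congr rfl fun i _ => ?_
          rw [pd_congr (Eventually.of_forall fun y => pd_sub (hφ.differentiable (by norm_num) y)
            ((contDiff_cut.mul hφ).differentiable (by norm_num) y) i) i,
            pd_sub (differentiableAt_pd hφ.contDiffAt i)
              (differentiableAt_pd (contDiff_cut.mul hφ).contDiffAt i)]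
        rw [hs, hl, lap_mul contDiff_cut.contDiffAt hφ.contDiffAt]
        ring
      have hρ2 : ρ ^ 2 ≤ 1 := pow_le_one₀ hρ.le hρ1
      have a1 : |cut n ρ x * lap φ x| ≤ M2 / ρ ^ 2 := by
        rw [abs_mul, abs_of_nonneg cut_nonneg]
        refine (mul_le_of_le_one_left (abs_nonneg _) cut_le_one).trans ((hM2 x).trans ?_)
        rw [le_div_iff₀ (pow_pos hρ 2)]; nlinarith
      have a2 : |2 * ∑ i, pd i (cut n ρ) x * pd i φ x| ≤ 2 * n * B * M3 / ρ ^ 2 := by
        rw [abs_mul, abs_two]
        refine (mul_le_mul_of_nonneg_left ((Finset.abs_sum_le_sum_abs _ _).trans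
          (Finset.sum_le_sum fun i _ => (?_ : _ ≤ B * M3 / ρ ^ 2))) zero_le_two).trans_eq ?_
        · rw [abs_mul]
          refine (mul_le_mul ((hcut ρ hρ x).1 i) (le_trans ?_ (hM3 x)) (abs_nonneg _)
            (by positivity)).trans ?_
          · simpa [pd] using (fderiv ℝ φ x).le_opNorm (EuclideanSpace.single i (1 : ℝ))
          · rw [div_mul_eq_mul_div]
            exact div_le_div_of_nonneg_left (by positivity) (pow_pos hρ 2) (by nlinarith)
        · simp; ring
      have a3 : |lap (cut n ρ) x * φ x| ≤ B * M1 / ρ ^ 2 := by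
        rw [abs_mul]
        refine (mul_le_mul (hcut ρ hρ x).2 (hM1 x) (abs_nonneg _) (by positivity)).trans_eq ?_
        ring
      rw [← mul_sub, Real.norm_eq_abs, abs_mul, e, hC, mul_div_assoc]
      refine mul_le_mul hG0 ?_ (abs_nonneg _) m0
      refine (abs_sub _ _).trans
        ((add_le_add ((abs_sub _ _).trans (add_le_add (?_ : _ ≤ M2 / ρ ^ 2) a2)) a3).trans_eq ?_)
      · rwa [abs_neg]
      · ring
    rw [← setIntegral_eq_integral_of_forall_compl_eq_zero hzero]
    refine (norm_setIntegral_le_of_norm_le_const measure_closedBall_lt_top hbd).trans_eq ?_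
    rw [Measure.addHaar_real_closedBall' volume 0 (by positivity), finrank_euclideanSpace_fin,
      mul_pow, ← hV]
    obtain ⟨m, rfl⟩ : ∃ m, n = m + 2 := ⟨n - 2, by omega⟩
    rw [Nat.add_sub_cancel, pow_add ρ m 2]
    field_simp
  rw [← tendsto_sub_nhds_zero_iff, tendsto_zero_iff_abs_tendsto_zero]
  refine squeeze_zero' (Eventually.of_forall fun ρ => abs_nonneg _)
    ((eventually_mem_nhdsWithin.and (nhdsWithin_le_nhds (eventually_le_nhds one_pos))).mono
      fun ρ h => est ρ h.1 h.2) ?_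
  refine Tendsto.mono_left ?_ nhdsWithin_le_nhds
  have := ((continuous_pow (n - 2)).tendsto (0 : ℝ)).const_mul (C * 2 ^ n * V)
  simpa [zero_pow (by omega : n - 2 ≠ 0)] using this

/-- A continuous subsolution stays one across the origin. -/
theorem green_nonneg (hn : 3 ≤ n) (hGc : Continuous G) (hG : ContDiffOn ℝ 2 G {0}ᶜ)
    (hlap : ∀ x ≠ 0, 0 ≤ lap G x) (hφ : ContDiff ℝ 2 φ) (hc : HasCompactSupport φ)
    (hpos : ∀ x, 0 ≤ φ x) : 0 ≤ ∫ x, G x * lap φ x := by
  refine ge_of_tendsto (green_limit hn hGc hG hφ hc)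
    (eventually_mem_nhdsWithin.mono fun ρ hρ => integral_nonneg fun x => ?_)
  by_cases hx : x = 0
  · have : cut n ρ x = 1 := cut_eq_one hρ (by simpa [hx] using le_of_lt (mem_Ioi.1 hρ))
    exact le_of_eq (by simp [this])
  · exact mul_nonneg (hlap x hx) (mul_nonneg (sub_nonneg.2 cut_le_one) (hpos x))

end Vale.Agent.P100.Cmp
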